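import Vale.Agent.P071.Bdl.B11
import Vale.Agent.P071.Bdl.B9
import Vale.Agent.P071.Bdl.B10

/-!
# P071, Q1: the hot spots conjecture for simply connected planar domains
-/

open MeasureTheory Metric

namespace Vale.Agent.Results.P071.HotSpots

open Vale.Agent.P071

/-- **The hot spots conjecture for simply connected planar domains.** Every nonzero first
nonconstant Neumann eigenfunction `u` of a bounded simply connected planar Lipschitz domain `Ω`
satisfies `min_{∂Ω} u < u(x) < max_{∂Ω} u` for all `x ∈ Ω`. -/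
theorem result (Ω : Set ℂ) (ho : IsOpen Ω) (hb : Bornology.IsBounded Ω)
    (hs : IsSimplyConnected Ω) (hL : LipschitzBoundary Ω) (u : ℂ → ℝ) (hu : InV Ω u)
    (hc : ContinuousOn u (closure Ω)) (h0 : ∃ z ∈ Ω, u z ≠ 0) :
    ∃ a ∈ frontier Ω, ∃ b ∈ frontier Ω, (∀ y ∈ frontier Ω, u a ≤ u y ∧ u y ≤ u b) ∧
      ∀ x ∈ Ω, u a < u x ∧ u x < u b :=
  Lim.hot_spots_of (fun _ ho hs hn => RMT.riemann_mapping ho hs hn)
    (fun _ _ hf => G.disc_thm hf) Ω ho hb hs hL u hu hc h0

end Vale.Agent.Results.P071.HotSpots
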