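import Vale.Agent.P071.Bdl.B11
import Vale.Agent.P071.Bdl.B9
import Vale.Agent.P071.Bdl.B10

/-!
# P071, Q1: the hot spots conjecture for simply connected planar domains, for weak eigenfunctions
-/

open MeasureTheory Metric

namespace Vale.Agent.Results.P071.HotSpotsWeak

open Vale.Agent.P071

/-- **The hot spots conjecture for simply connected planar domains.** Every nonzero weak first
Neumann eigenfunction `u` of a bounded simply connected planar Lipschitz domain `Ω` has a version
`w` which is continuous on the closure of `Ω`, and it satisfies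
`min_{∂Ω} w < w(x) < max_{∂Ω} w` for all `x ∈ Ω`. -/
theorem result (Ω : Set ℂ) (ho : IsOpen Ω) (hb : Bornology.IsBounded Ω)
    (hs : IsSimplyConnected Ω) (hL : LipschitzBoundary Ω) (u : ℂ → ℝ) (hu : InV Ω u)
    (h0 : ¬ ∀ᵐ z ∂(volume.restrict Ω), u z = 0) :
    ∃ w : ℂ → ℝ, ContinuousOn w (closure Ω) ∧ (∀ᵐ z ∂(volume.restrict Ω), w z = u z) ∧
      ∃ a ∈ frontier Ω, ∃ b ∈ frontier Ω, (∀ y ∈ frontier Ω, w a ≤ w y ∧ w y ≤ w b) ∧
        ∀ x ∈ Ω, w a < w x ∧ w x < w b := by
  obtain ⟨w, hc, hw, hV⟩ := Reg.InV.exists_continuous ho hL hu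
  refine ⟨w, hc, hw, ?_⟩
  refine Lim.hot_spots_of (fun _ ho hs hn => RMT.riemann_mapping ho hs hn)
    (fun _ _ hf => G.disc_thm hf) Ω ho hb hs hL w hV hc ?_
  by_contra hcon
  push Not at hcon
  apply h0
  filter_upwards [hw, ae_restrict_mem ho.measurableSet] with z h1 h2
  rw [← h1]
  exact hcon z h2

end Vale.Agent.Results.P071.HotSpotsWeak
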